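import Vale.Agent.P265.Dis.Model

/-!
# Block B6 of P265: compact neighbourhood and a point of the level set of Model P
-/

open Complex Set
open scoped Quaternion

namespace Vale.Agent.P265.Dis

theorem norm_le_of_norm_G_le {x : E} (h : ‖G x‖ ≤ 1) : ‖x‖ ≤ 3 := by
  have k1 := (norm_fst_le (G x)).trans h
  have k2 := ((norm_fst_le (G x).2).trans (norm_snd_le (G x))).trans h
  have k3 := (((norm_fst_le (G x).2.2).trans (norm_snd_le (G x).2)).trans
    (norm_snd_le (G x))).trans h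
  have k4 := ((((norm_fst_le (G x).2.2.2).trans (norm_snd_le (G x).2.2)).trans
    (norm_snd_le (G x).2)).trans (norm_snd_le (G x))).trans h
  rw [Real.norm_eq_abs, abs_le] at k1 k2 k3 k4
  simp only [G] at k1 k2 k3 k4
  have hc : ‖x.1.1‖ ≤ 3 := by nlinarith [norm_nonneg x.1.1]
  have hf : ‖fW x.1‖ ≤ 2 := by nlinarith [norm_nonneg (fW x.1)]
  have hd : ‖dW x.1‖ ≤ 3 := by nlinarith [norm_nonneg (dW x.1), sq_nonneg x.1.2.2.2]
  have hs : ‖x.1.2.2.2‖ ≤ 3 := by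
    rw [Real.norm_eq_abs]
    exact abs_le_of_sq_le_sq (by nlinarith [sq_nonneg ‖dW x.1‖]) (by norm_num)
  have hv : ‖x.2‖ ≤ 3 := by nlinarith [norm_nonneg x.2]
  have e1 : x.1.2.1 ^ 2 = (fW x.1 + dW x.1) / 2 := by simp only [fW, dW]; ring
  have e2 : x.1.2.2.1 ^ 3 = (fW x.1 - dW x.1) / 2 := by simp only [fW, dW]; ring
  have m1 : ‖x.1.2.1‖ ^ 2 ≤ 3 := by
    rw [← norm_pow, e1, norm_div]
    have := norm_add_le (fW x.1) (dW x.1)
    simp only [Complex.norm_ofNat]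
    linarith
  have m2 : ‖x.1.2.2.1‖ ^ 3 ≤ 3 := by
    rw [← norm_pow, e2, norm_div]
    have := norm_sub_le (fW x.1) (dW x.1)
    simp only [Complex.norm_ofNat]
    linarith
  have hz1 : ‖x.1.2.1‖ ≤ 3 := by nlinarith [norm_nonneg x.1.2.1]
  have hz2 : ‖x.1.2.2.1‖ ≤ 3 := by
    by_contra hcon
    push Not at hcon
    have : (3 : ℝ) ^ 3 < ‖x.1.2.2.1‖ ^ 3 := pow_lt_pow_left₀ hcon (by norm_num) (by norm_num)
    linarith
  exact max_le (max_le hc (max_le hz1 (max_le hz2 hs))) hv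

theorem continuous_G : Continuous G := contDiff_G.continuous

theorem isCompact_norm_G_le {r : ℝ} (hr : r ≤ 1) : IsCompact {x : E | ‖G x‖ ≤ r} :=
  (isCompact_closedBall (0 : E) 3).of_isClosed_subset
    (isClosed_le continuous_G.norm continuous_const) fun x hx => by
      simpa using norm_le_of_norm_G_le (hx.trans hr)

theorem isCompact_G_eq_zero : IsCompact {x : E | G x = 0} := by
  simpa using isCompact_norm_G_le (r := 0) zero_le_one

/-- The quaternion `i`. -/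
def iQ : ℍ[ℝ] := ⟨0, 1, 0, 0⟩

theorem iQ_re : iQ.re = 0 := rfl

theorem norm_iQ : ‖iQ‖ = 1 := by
  have h1 : ‖iQ‖ * ‖iQ‖ = 1 := by
    rw [← Quaternion.normSq_eq_norm_mul_self, Quaternion.normSq_def']
    norm_num [iQ]
  nlinarith [norm_nonneg iQ]

/-- A point of the level set. -/
theorem exists_G_eq_zero : ∃ x : E, G x = 0 := by
  refine ⟨((1, ((Real.sqrt (3 / 2) : ℝ) : ℂ), (-((1 / 2 : ℝ) ^ (1 / 3 : ℝ) : ℝ) : ℂ), 0),
    iQ), ?_⟩
  have e1 : ((Real.sqrt (3 / 2) : ℝ) : ℂ) ^ 2 = 3 / 2 := by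
    rw [← ofReal_pow, Real.sq_sqrt (by norm_num)]; norm_num
  have e2 : (-((1 / 2 : ℝ) ^ (1 / 3 : ℝ) : ℝ) : ℂ) ^ 3 = -(1 / 2) := by
    have : ((1 / 2 : ℝ) ^ (1 / 3 : ℝ)) ^ 3 = 1 / 2 := by
      rw [← Real.rpow_natCast, ← Real.rpow_mul (by norm_num)]; norm_num
    rw [neg_pow, ← ofReal_pow, this]; norm_num
  rw [mem_iff]
  refine ⟨by simp, ?_, ?_, norm_iQ, iQ_re⟩
  · simp only [fW, e1, e2]; norm_num
  · simp only [dW, e1, e2]; norm_num
instance : Nonempty M := exists_G_eq_zero.elim fun x hx => ⟨RL.pt x hx⟩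

end Vale.Agent.P265.Dis
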